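import Vale.Agent.P193.Full.Core.Facts.ZTree

/-! The three machine rules, as equalities of sets and graphs. -/

namespace Vale.Agent.P193.Core.Facts

open FreeGroup

set_option linter.unusedSectionVars false

variable {d : Data}

/-- The place where a certificate of mode `b` is read. -/
def certS (b : Bool) : Set (Point d) := cleanS ∩ hOneS ∩ zS (cval d b)

/-- On a certificate the guessed value is trivial exactly in the positive mode. -/
theorem cert_guessVal (hG : Good d) {b : Bool} {x : Point d} (hx : x ∈ certS b) :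
    guessVal d x.σ = 1 ↔ b = true := by
  classical
  obtain ⟨⟨⟨hs, hc⟩, hh⟩, hz⟩ := hx
  obtain ⟨st, σ, t, w, g, h⟩ := x
  have ho : offset d σ = legit [] b := (zval_hOne hh).symm.trans hz
  simpa using legit_path hG σ hs hc [] b ho

/-- RULE 1: the guessed-value maps fix a positive certificate. -/
theorem rule1 (hG : Good d) (j : Fin 3) :
    gcomp (gid (tagS ∩ certS true)) (uG (d := d) j) = gid (tagS ∩ certS true) := by
  ext ⟨x, y⟩
  constructor
  · rintro ⟨z, ⟨h1, ht, hc⟩, -, -, h2⟩
    simp only at h1 h2 hc ht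
    subst h1
    rw [(cert_guessVal hG hc).2 rfl, proj_one, mul_one] at h2
    exact ⟨h2.symm, ht, hc⟩
  · rintro ⟨h1, ht, hc⟩
    simp only at h1 hc ht
    subst h1
    refine ⟨x, ⟨rfl, ht, hc⟩, hc.1.1.1, ht, ?_⟩
    simp only [(cert_guessVal hG hc).2 rfl, proj_one, mul_one]

/-- RULE 1': on a positive certificate the two point predicates agree. -/
theorem rule1' (hG : Good d) (k : Inner d) :
    gS k ∩ certS true = (kS k ∩ certS true : Set (Point d)) := by
  ext x
  constructor
  · rintro ⟨⟨hb, hg⟩, hc⟩
    exact ⟨⟨hb, hc.1.1.1, by rw [(cert_guessVal hG hc).2 rfl, one_mul, hg]⟩, hc⟩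
  · rintro ⟨⟨hb, -, hg⟩, hc⟩
    exact ⟨⟨hb, by rwa [(cert_guessVal hG hc).2 rfl, one_mul] at hg⟩, hc⟩

/-- RULE 2: on a negative certificate the two point predicates exclude each other. -/
theorem rule2 (hG : Good d) (k : Inner d) :
    gS k ∩ kS k ∩ certS false = (∅ : Set (Point d)) := by
  ext x
  simp only [Set.mem_empty_iff_false, iff_false]
  rintro ⟨⟨⟨-, hg⟩, -, -, hk⟩, hc⟩
  have : guessVal d x.σ = 1 := by
    rw [hg] at hk
    exact mul_eq_right.1 hk
  exact absurd ((cert_guessVal hG hc).1 this) (by simp)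

theorem rule1'_one (hG : Good d) :
    gOneS ∩ certS true = (kOneS ∩ certS true : Set (Point d)) :=
  rule1' hG 1

theorem rule2_one (hG : Good d) : gOneS ∩ kOneS ∩ certS false = (∅ : Set (Point d)) :=
  rule2 hG 1

/-- The offset of a certificate is reached from the trivial one by two translations. -/
theorem zS_cval (b : Bool) :
    gimg (hT (lsh ((d.M.head b, false), true)))
      (gimg (hT (lsh ((d.M.last, false), true))) (zOneS : Set (Point d))) = zS (cval d b) := by
  rw [lsh_img_zOne, lsh_img_zS, mul_mk]; rfl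

end Vale.Agent.P193.Core.Facts
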