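import Vale.Agent.P193.Full.Core.Facts.Push

/-! The tree of seen offsets under the outer translations, and the shape rules. -/

namespace Vale.Agent.P193.Core.Facts

open FreeGroup

set_option linter.unusedSectionVars false

variable {d : Data}

/-- The inverse of a signed letter. -/
abbrev flp (s : Ltr d × Bool) : Ltr d × Bool := (s.1, !s.2)

/-- The translation that puts a signed letter in front of the seen offset. -/
def lsh (s : Ltr d × Bool) : Outer d := (1, (FreeGroup.mk [s])⁻¹, 1)

/-- The translation that puts a signed letter behind the seen offset. -/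
def rsh (s : Ltr d × Bool) : Outer d := (1, 1, FreeGroup.mk [s])

theorem zval_hT (x : Point d) (t : Outer d) :
    zval d { x with h := x.h * t } = t.2.1⁻¹ * zval d x * t.2.2 := by
  simp [zval, mul_assoc]

theorem lsh_false (a : Ltr d) : lsh (a, false) = ((1, FreeGroup.of a, 1) : Outer d) := by
  simp [lsh, FreeGroup.of, FreeGroup.inv_mk, FreeGroup.invRev]

theorem lsh_true (a : Ltr d) : lsh (a, true) = ((1, FreeGroup.of a, 1) : Outer d)⁻¹ := by
  simp [lsh, FreeGroup.of]

theorem rsh_true (a : Ltr d) : rsh (a, true) = ((1, 1, FreeGroup.of a) : Outer d) := rfl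

theorem rsh_false (a : Ltr d) : rsh (a, false) = ((1, 1, FreeGroup.of a) : Outer d)⁻¹ := by
  simp [rsh, FreeGroup.of, FreeGroup.inv_mk, FreeGroup.invRev]

theorem mem_hT_z {t : Outer d} {p : FA d → Prop} {x : Point d} :
    x ∈ gimg (hT t) {y | p (zval d y)} ↔ p (t.2.1 * zval d x * t.2.2⁻¹) := by
  rw [mem_gimg_hT]
  simp [zval_hT]

theorem hT_img_zS (t : Outer d) (z : FA d) :
    gimg (hT t) (zS z) = zS (t.2.1⁻¹ * z * t.2.2) := by
  ext x
  rw [zS, mem_hT_z (p := fun v => v = z)]
  constructor
  · intro h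
    show zval d x = _
    rw [← h]; group
  · intro h
    rw [show zval d x = _ from h]; group

/-- Translations fixing the trivial offset. -/
theorem hT_img_zOne_of {t : Outer d} (ht : t.2.1 = t.2.2) :
    gimg (hT t) (zOneS : Set (Point d)) = zOneS := by
  rw [← zS_one, hT_img_zS, ht]; simp

theorem rsh_img_zOne (s : Ltr d × Bool) :
    gimg (hT (rsh s)) (zOneS : Set (Point d)) = zS (mk [s]) := by
  rw [← zS_one, hT_img_zS]; simp [rsh]

theorem lsh_img_zS (s : Ltr d × Bool) (z : FA d) :
    gimg (hT (lsh s)) (zS z) = zS (mk [s] * z) := by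
  rw [hT_img_zS]; simp [lsh]

theorem lsh_img_zOne (s : Ltr d × Bool) :
    gimg (hT (lsh s)) (zOneS : Set (Point d)) = zS (mk [s]) := by
  rw [← zS_one, lsh_img_zS, mul_one]

theorem hT₀_img (k : d.Γ₀) {p : FA d → Prop} :
    gimg (hT ((k, 1, 1) : Outer d)) {x | p (zval d x)} = {x | p (zval d x)} := by
  ext x; rw [mem_hT_z (p := p)]; simp

section
variable [DecidableEq d.M.A]

theorem zCone_single (s : Ltr d × Bool) : zCone [s] = zFrontS s := by
  ext x
  show [s] <+: (zval d x).toWord ↔ (zval d x).toWord.head? = some s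
  cases (zval d x).toWord with
  | nil => simp
  | cons a l => simp [List.cons_prefix_cons, eq_comm]

theorem zCone_nil : zCone ([] : List (Ltr d × Bool)) = Set.univ :=
  Set.eq_univ_of_forall fun _ => List.nil_prefix

theorem not_flp_head {s : Ltr d × Bool} {z : FA d} {v : List (Ltr d × Bool)}
    (h : z.toWord = s :: v) : v.head? ≠ some (flp s) := by
  intro hv
  exact (isReduced_cons_iff.1 (h ▸ isReduced_toWord (x := z))).2 _ hv rfl

/-- The word of a product with an inverted letter in front. -/
theorem toWord_inv_mul (s : Ltr d × Bool) (z : FA d) :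
    (∃ v, z.toWord = s :: v ∧ ((mk [s])⁻¹ * z).toWord = v) ∨
      (z.toWord.head? ≠ some s ∧ ((mk [s])⁻¹ * z).toWord = flp s :: z.toWord) := by
  by_cases h : z.toWord.head? = some s
  · obtain ⟨v, hv⟩ : ∃ v, z.toWord = s :: v := by
      cases hc : z.toWord with
      | nil => simp [hc] at h
      | cons a v => simp [hc] at h; exact ⟨v, by rw [h]⟩
    refine Or.inl ⟨v, hv, ?_⟩
    have e : (mk [s])⁻¹ * z = mk v := by
      conv_lhs => rw [← mk_toWord (x := z), hv, show mk (s :: v) = mk [s] * mk v by rw [mul_mk]; rfl]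
      rw [inv_mul_cancel_left]
    rw [e, toWord_mk_of_reduced (isReduced_cons_iff.1 (hv ▸ isReduced_toWord (x := z))).1]
  · refine Or.inr ⟨h, ?_⟩
    rw [inv_mk, show invRev [s] = [flp s] from rfl]
    refine toWord_cons_of_reduced (isReduced_cons_iff.2 ⟨isReduced_toWord, fun y hy e => h ?_⟩)
    rw [hy, e]; simp [flp]

/-- Putting a letter in front of a cone. -/
theorem lsh_img_zCone (s : Ltr d × Bool) {u : List (Ltr d × Bool)} (hu : u ≠ [])
    (hr : FreeGroup.IsReduced (s :: u)) :
    gimg (hT (lsh s)) (zCone u) = zCone (s :: u) := by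
  ext x
  rw [zCone, mem_hT_z (p := fun z => u <+: z.toWord)]
  simp only [lsh, inv_one, mul_one]
  show u <+: _ ↔ s :: u <+: _
  rcases toWord_inv_mul s (zval d x) with ⟨v, h1, h2⟩ | ⟨h1, h2⟩
  · rw [h2, h1]; simp [List.cons_prefix_cons]
  · rw [h2]
    refine iff_of_false (fun h => ?_) (fun h => h1 ?_)
    · obtain ⟨c, u', rfl⟩ := List.exists_cons_of_ne_nil hu
      have := (List.cons_prefix_cons.1 h).1
      exact (isReduced_cons_iff.1 hr).2 c rfl this
    · obtain ⟨r, hr'⟩ := h
      rw [← hr']; rfl

theorem lsh_img_zFrontS (s t : Ltr d × Bool) (ht : t ≠ flp s) :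
    gimg (hT (lsh s)) (zFrontS t) = zCone [s, t] := by
  rw [← zCone_single, lsh_img_zCone s (by simp)]
  exact isReduced_cons_iff.2 ⟨List.isChain_singleton _, fun y hy => by
    simp at hy; subst hy; exact ht⟩

/-- Putting a letter in front of the cone of its inverse gives the complement of its own cone. -/
theorem lsh_img_zFrontS_flp (s : Ltr d × Bool) :
    gimg (hT (lsh s)) (zFrontS (flp s)) = (zFrontS s)ᶜ := by
  ext x
  rw [zFrontS, mem_hT_z (p := fun z => z.toWord.head? = some (flp s))]
  simp only [lsh, inv_one, mul_one]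
  show _ = _ ↔ ¬ ((zval d x).toWord.head? = some s)
  rcases toWord_inv_mul s (zval d x) with ⟨v, h1, h2⟩ | ⟨h1, h2⟩
  · rw [h2, h1]; simpa using not_flp_head h1
  · rw [h2]; simpa using h1

theorem last_flp {s : Ltr d × Bool} {z : FA d}
    (h : z.toWord.getLast? ≠ some s) : (z * (mk [s])⁻¹).toWord = z.toWord ++ [flp s] := by
  conv_lhs => rw [← mk_toWord (x := z), inv_mk, show invRev [s] = [flp s] from rfl, mul_mk]
  refine toWord_mk_of_reduced (List.isChain_append.2
    ⟨isReduced_toWord, List.isChain_singleton _, fun p hp q hq => ?_⟩)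
  simp at hq
  subst hq
  obtain ⟨p1, p2⟩ := p
  obtain ⟨s1, s2⟩ := s
  intro he
  simp [flp] at he ⊢
  subst he
  cases p2 <;> cases s2 <;> simp_all

theorem last_cancel {s : Ltr d × Bool} {z : FA d} {v : List (Ltr d × Bool)}
    (h : z.toWord = v ++ [s]) : (z * (mk [s])⁻¹).toWord = v := by
  have e : z * (mk [s])⁻¹ = mk v := by
    conv_lhs => rw [← mk_toWord (x := z), h, ← mul_mk]
    rw [mul_inv_cancel_right]
  have hv : FreeGroup.IsReduced v :=
    (List.isChain_append.1 (h ▸ isReduced_toWord (x := z) : FreeGroup.IsReduced (v ++ [s]))).1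
  rw [e, toWord_mk_of_reduced hv]

theorem zS_mk_single (s : Ltr d × Bool) (x : Point d) :
    x ∈ zS (mk [s]) ↔ (zval d x).toWord = [s] := by
  constructor
  · intro h; rw [show zval d x = _ from h, toWord_mk_of_reduced (List.isChain_singleton _)]
  · intro h; show zval d x = _; rw [← mk_toWord (x := zval d x), h]

theorem zOne_iff (x : Point d) : x ∈ zOneS ↔ (zval d x).toWord = [] :=
  FreeGroup.toWord_eq_nil_iff.symm

/-- Putting a letter behind: cones on other first letters stay. -/
theorem rsh_img_zFrontS (s t : Ltr d × Bool) (h1 : t ≠ s) (h2 : t ≠ flp s) :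
    gimg (hT (rsh s)) (zFrontS t) = zFrontS t := by
  ext x
  rw [zFrontS, mem_hT_z (p := fun z => z.toWord.head? = some t)]
  simp only [rsh, one_mul]
  show _ = _ ↔ (zval d x).toWord.head? = some t
  by_cases h : (zval d x).toWord.getLast? = some s
  · obtain ⟨v, hv⟩ := List.getLast?_eq_some_iff.1 h
    rw [last_cancel hv, hv]
    cases v <;> simp [Ne.symm h1]
  · rw [last_flp h]
    cases (zval d x).toWord <;> simp [Ne.symm h2]

/-- Putting a letter behind: its own cone loses one point. -/
theorem rsh_img_zFrontS_self (s : Ltr d × Bool) :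
    gimg (hT (rsh s)) (zFrontS s) = zFrontS s \ zS (mk [s]) := by
  ext x
  rw [zFrontS, mem_hT_z (p := fun z => z.toWord.head? = some s), Set.mem_sdiff, zS_mk_single]
  simp only [rsh, one_mul]
  show _ = _ ↔ (zval d x).toWord.head? = some s ∧ _
  have hne : flp s ≠ s := by obtain ⟨a, b⟩ := s; simp [flp]
  by_cases h : (zval d x).toWord.getLast? = some s
  · obtain ⟨v, hv⟩ := List.getLast?_eq_some_iff.1 h
    rw [last_cancel hv, hv]
    cases v <;> simp
  · rw [last_flp h]
    cases hc : (zval d x).toWord with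
    | nil => simp [hne]
    | cons a l =>
      simp only [List.cons_append, List.head?_cons, Option.some.injEq, iff_self_and]
      rintro rfl e
      simp [hc, e] at h

/-- Putting a letter behind: the cone of its inverse gains the trivial offset. -/
theorem rsh_img_zFrontS_flp (s : Ltr d × Bool) :
    gimg (hT (rsh s)) (zFrontS (flp s)) = zFrontS (flp s) ∪ zOneS := by
  ext x
  rw [zFrontS, mem_hT_z (p := fun z => z.toWord.head? = some (flp s)), Set.mem_union, zOne_iff]
  simp only [rsh, one_mul]
  show _ = _ ↔ (zval d x).toWord.head? = some (flp s) ∨ _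
  by_cases h : (zval d x).toWord.getLast? = some s
  · obtain ⟨v, hv⟩ := List.getLast?_eq_some_iff.1 h
    rw [last_cancel hv, hv]
    cases v <;> simp [flp, Prod.ext_iff]
  · rw [last_flp h]
    cases (zval d x).toWord <;> simp

/-- The first letters split the offsets. -/
theorem zTree_cover :
    zOneS ∪ ⋃ s : Ltr d × Bool, zFrontS s = (Set.univ : Set (Point d)) := by
  ext x
  simp only [Set.mem_union, Set.mem_iUnion, Set.mem_univ, iff_true, zOne_iff]
  cases hc : (zval d x).toWord with
  | nil => exact Or.inl rfl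
  | cons a l => exact Or.inr ⟨a, by simp [zFrontS, hc]⟩

theorem zTree_disjoint :
    (∀ s : Ltr d × Bool, Disjoint (zOneS : Set (Point d)) (zFrontS s)) ∧
      ∀ s t : Ltr d × Bool, s ≠ t → Disjoint (zFrontS s) (zFrontS t) := by
  refine ⟨fun s => Set.disjoint_left.2 fun x h1 h2 => ?_,
    fun s t hne => Set.disjoint_left.2 fun x h1 h2 => hne (Option.some.inj (h1.symm.trans h2))⟩
  simp [zFrontS, (zOne_iff x).1 h1] at h2

/-- With trivial outer coordinate the seen offset is the offset of the path. -/
theorem zval_hOne {x : Point d} (h : x ∈ hOneS) : zval d x = offset d x.σ := by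
  simp [zval, show x.h = 1 from h]

/-- Shape rule at a boundary. -/
theorem bd_shape (i : Bool) :
    atS (.bd i : State d) ∩ hOneS ⊆ zFrontS ((d.M.first, i), true) := by
  rintro ⟨st, σ, b, w, g, h⟩ ⟨h1, h2⟩
  cases (show st = .bd i from h1)
  show List.head? _ = _
  rw [zval_hOne h2]
  exact offset_shape σ

/-- Shape rule inside a row. -/
theorem step_shape (i : Bool) (q : d.M.Q) :
    atS (.step i q : State d) ∩ hOneS ⊆
      ⋃ a ∈ {a : d.M.A | a ≠ d.M.first}, zFrontS ((a, i), true) := by
  rintro ⟨st, σ, b, w, g, h⟩ ⟨h1, h2⟩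
  cases (show st = .step i q from h1)
  obtain ⟨a, ha, hh⟩ := offset_shape σ
  refine Set.mem_biUnion ha ?_
  show List.head? _ = _
  rw [zval_hOne h2]; exact hh

/-- Shape rule inside a halted row. -/
theorem halt_shape (i : Bool) (q : d.M.Qh) :
    atS (.halt i q : State d) ∩ hOneS ⊆
      ⋃ a ∈ {a : d.M.A | a ≠ d.M.first}, zFrontS ((a, i), true) := by
  rintro ⟨st, σ, b, w, g, h⟩ ⟨h1, h2⟩
  cases (show st = .halt i q from h1)
  obtain ⟨a, ha, hh⟩ := offset_shape σ
  refine Set.mem_biUnion ha ?_
  show List.head? _ = _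
  rw [zval_hOne h2]; exact hh

/-- Shape rule inside a flood. -/
theorem scan_shape (p : Pat) (s : Ltr d × Bool) :
    Disjoint (atS (.scan p s : State d) ∩ hOneS) (zOneS ∪ zFrontS (flp s)) := by
  rw [Set.disjoint_left]
  rintro ⟨st, σ, b, w, g, h⟩ ⟨h1, h2⟩ hz
  cases (show st = .scan p s from h1)
  have hz' : offset d σ = 1 ∨ (offset d σ).toWord.head? = some (flp s) := by
    rcases hz with hz | hz
    · exact Or.inl ((zval_hOne h2).symm.trans hz)
    · exact Or.inr (by rw [← zval_hOne h2]; exact hz)
  obtain ⟨hne, hred⟩ := offset_shape σ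
  rcases hz' with hz' | hz'
  · exact hne hz'
  · exact (isReduced_cons_iff.1 hred).2 _ hz' rfl

end

end Vale.Agent.P193.Core.Facts
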