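import Vale.Agent.P193.Full.Core.Facts.Gens

/-! Edges: they split every state, and the recursions of the base sets along them. -/

namespace Vale.Agent.P193.Core.Facts

open FreeGroup

set_option linter.unusedSectionVars false

variable {d : Data}

theorem gimg_preimage {S : Type} {m : Set (S × S)} (hm : IsPB m) (b : Set S) :
    gimg m (gimg (ginv m) b) = gran m ∩ b := by
  ext t
  constructor
  · rintro ⟨s, ⟨t', ht', h'⟩, h⟩
    exact ⟨⟨s, h⟩, hm.1 s t' t h' h ▸ ht'⟩
  · rintro ⟨⟨s, h⟩, ht⟩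
    exact ⟨s, ⟨t, ht, h⟩, h⟩

/-- The edge that guesses a letter. -/
def letterE (j : Fin d.n) : Edge d :=
  ⟨.guess, .guess, [((d.M.letter j, false), false)], [], .letter j⟩

theorem letterE_ok (j : Fin d.n) : (letterE j).OK := Edge.OK.letter j

theorem edge_letter_eq {e : Edge d} (he : e.OK) {j : Fin d.n} (hk : e.kind = .letter j) :
    e = letterE j := by
  cases he with
  | letter i => cases hk; rfl
  | _ => cases hk

theorem edge_junk_src {e : Edge d} (he : e.OK) (hk : e.kind = .junk) : e.src = .guess := by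
  cases he with
  | gjunk _ => rfl
  | reach _ _ => rfl
  | _ => cases hk

/-- Rows and states: the domain of an edge is its target state. -/
theorem gdom_edgeG (e : Edge d) (he : e.OK) : gdom (edgeG e he) = atS e.tgt := by
  ext x
  constructor
  · rintro ⟨y, σ, b, w, g, h, rfl, -⟩; rfl
  · intro hx
    obtain ⟨st, σ, b, w, g, h⟩ := x
    cases (show st = e.tgt from hx)
    exact ⟨_, σ, b, w, g, h, rfl, rfl⟩

/-- The range of an edge is the set of points whose path begins with it. -/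
theorem gran_edgeG (e : Edge d) (he : e.OK) : gran (edgeG e he) = edgeS e := by
  ext x
  constructor
  · rintro ⟨y, σ, b, w, g, h, -, hx⟩
    exact ⟨he, σ, b, w, g, _, hx⟩
  · rintro ⟨he', σ, b, w, g, h, rfl⟩
    refine ⟨_, σ, b, w, g, ((1, e.pval, e.qval) : Outer d)⁻¹ * h, rfl, ?_⟩
    simp [← mul_assoc]

theorem edgeS_subset (e : Edge d) : edgeS e ⊆ atS e.src := by
  rintro x ⟨he, σ, b, w, g, h, rfl⟩; rfl

theorem edgeS_disjoint {e e' : Edge d} (h : e ≠ e') : Disjoint (edgeS e) (edgeS e') := by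
  classical
  rw [Set.disjoint_left]
  rintro x ⟨he, σ, b, w, g, k, rfl⟩ ⟨he', σ', b', w', g', k', hx⟩
  exact h (by simpa [Path.edges] using congrArg (fun y : Point d => y.σ.edges.head?) hx)

/-- Every state other than the final one is split by its edges. -/
theorem atS_eq_iUnion {s : State d} (hs : s ≠ .fin) :
    atS s = ⋃ e ∈ {e : Edge d | e.OK ∧ e.src = s}, edgeS e := by
  ext x
  simp only [Set.mem_iUnion, exists_prop, Set.mem_ofPred_eq]
  constructor
  · intro hx
    obtain ⟨st, σ, b, w, g, h⟩ := x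
    cases (show st = s from hx)
    cases σ with
    | nil => exact absurd rfl hs
    | cons e he τ => exact ⟨e, ⟨he, rfl⟩, he, τ, b, w, g, h, rfl⟩
  · rintro ⟨e, ⟨-, rfl⟩, hx⟩
    exact edgeS_subset e hx

/-- A state without edges is empty. -/
theorem atS_eq_empty {s : State d} (hs : s ≠ .fin) (h : ∀ e : Edge d, e.OK → e.src ≠ s) :
    atS s = ∅ := by
  rw [atS_eq_iUnion hs]
  simp only [Set.iUnion_eq_empty]
  exact fun e he => absurd he.2 (h e he.1)

theorem iUnion_atS : ⋃ s : State d, atS s = Set.univ := by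
  ext x; simp [atS]

theorem atS_disjoint {s t : State d} (h : s ≠ t) : Disjoint (atS s) (atS t) :=
  Set.disjoint_left.2 fun _ h1 h2 => h (h1.symm.trans h2)

/-- The preimage of a set along an edge, point by point. -/
theorem edge_pre {e : Edge d} (he : e.OK) {B C : Set (Point d)}
    (h : ∀ σ b w g h, (⟨e.src, .cons e he σ, b, w, g, (1, e.pval, e.qval) * h⟩ : Point d) ∈ B ↔
      (⟨e.tgt, σ, b, w, g, h⟩ : Point d) ∈ C) :
    gimg (ginv (edgeG e he)) B = atS e.tgt ∩ C := by
  ext x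
  constructor
  · rintro ⟨y, hy, σ, b, w, g, k, rfl, rfl⟩
    exact ⟨rfl, (h σ b w g k).1 hy⟩
  · rintro ⟨hx, hC⟩
    obtain ⟨st, σ, b, w, g, k⟩ := x
    cases (show st = e.tgt from hx)
    exact ⟨_, (h σ b w g k).2 hC, σ, b, w, g, k, rfl, rfl⟩

theorem edge_pre_empty {e : Edge d} (he : e.OK) {B : Set (Point d)}
    (h : ∀ σ b w g h, (⟨e.src, .cons e he σ, b, w, g, (1, e.pval, e.qval) * h⟩ : Point d) ∉ B) :
    gimg (ginv (edgeG e he)) B = ∅ := by
  rw [edge_pre he (C := ∅) fun σ b w g k => iff_of_false (h σ b w g k) id, Set.inter_empty]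

theorem edge_pre_atS_src {e : Edge d} (he : e.OK) :
    gimg (ginv (edgeG e he)) (atS e.src) = atS e.tgt := by
  rw [edge_pre he (C := Set.univ) fun σ b w g k => iff_of_true rfl trivial, Set.inter_univ]

theorem edge_pre_atS_ne {e : Edge d} (he : e.OK) {s : State d} (hs : e.src ≠ s) :
    gimg (ginv (edgeG e he)) (atS s) = ∅ :=
  edge_pre_empty he fun _ _ _ _ _ => hs

theorem edge_pre_tagS {e : Edge d} (he : e.OK) :
    gimg (ginv (edgeG e he)) tagS = atS e.tgt ∩ tagS :=
  edge_pre he fun _ _ _ _ _ => Iff.rfl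

theorem edge_pre_hS {e : Edge d} (he : e.OK) (t : Outer d) :
    gimg (ginv (edgeG e he)) (hS t) = atS e.tgt ∩ hS (((1, e.pval, e.qval) : Outer d)⁻¹ * t) :=
  edge_pre he fun _ _ _ _ h => by
    simp only [hS, Set.mem_ofPred_eq]
    exact ⟨fun e' => by rw [← e', inv_mul_cancel_left], fun e' => by rw [e', mul_inv_cancel_left]⟩

theorem edge_pre_gS {e : Edge d} (he : e.OK) (k : Inner d) :
    gimg (ginv (edgeG e he)) (gS k) = atS e.tgt ∩ gS k :=
  edge_pre he fun _ _ _ _ _ => Iff.rfl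

/-- Edges do not change the offset seen from a point. -/
theorem zval_edge {e : Edge d} (he : e.OK) (σ : Path d e.tgt) (b : Bool) (w : Wd d b) (g : Inner d)
    (h : Outer d) :
    zval d ⟨e.src, .cons e he σ, b, w, g, (1, e.pval, e.qval) * h⟩ =
      zval d ⟨e.tgt, σ, b, w, g, h⟩ := by
  simp [zval, offset, mul_assoc]

theorem edge_pre_zS {e : Edge d} (he : e.OK) (z : FA d) :
    gimg (ginv (edgeG e he)) (zS z) = atS e.tgt ∩ zS z :=
  edge_pre he fun σ b w g h => by simp only [zS, Set.mem_ofPred_eq, zval_edge]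

theorem edge_pre_zFrontS [DecidableEq d.M.A] {e : Edge d} (he : e.OK) (s : Ltr d × Bool) :
    gimg (ginv (edgeG e he)) (zFrontS s) = atS e.tgt ∩ zFrontS s :=
  edge_pre he fun σ b w g h => by simp only [zFrontS, Set.mem_ofPred_eq, zval_edge]

theorem edge_pre_zCone [DecidableEq d.M.A] {e : Edge d} (he : e.OK)
    (u : List (Ltr d × Bool)) :
    gimg (ginv (edgeG e he)) (zCone u) = atS e.tgt ∩ zCone u :=
  edge_pre he fun σ b w g h => by simp only [zCone, Set.mem_ofPred_eq, zval_edge]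

/-- Clean, along a letter. -/
theorem edge_pre_cleanS_letter (j : Fin d.n) :
    gimg (ginv (edgeG (letterE j) (letterE_ok j))) cleanS = atS .guess ∩ cleanS :=
  edge_pre (letterE_ok j) fun σ b w g h => ⟨fun k => ⟨rfl, k.2⟩, fun k => ⟨rfl, k.2⟩⟩

/-- Clean, along junk. -/
theorem edge_pre_cleanS_junk {e : Edge d} (he : e.OK) (hk : e.kind = .junk) :
    gimg (ginv (edgeG e he)) cleanS = ∅ :=
  edge_pre_empty he fun σ b w g h ⟨_, h2⟩ => by simp [clean, hk] at h2

/-- Clean, along an edge leaving the guess. -/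
theorem edge_pre_cleanS_other {e : Edge d} (he : e.OK) (hs : e.src = .guess)
    (hk : e.kind = .other) : gimg (ginv (edgeG e he)) cleanS = atS e.tgt := by
  rw [edge_pre he (C := Set.univ) fun σ b w g h => iff_of_true (show _ ∧ _ from ⟨hs, by simp [clean, hk]⟩) trivial,
    Set.inter_univ]

theorem edge_pre_cleanS_ne {e : Edge d} (he : e.OK) (hs : e.src ≠ .guess) :
    gimg (ginv (edgeG e he)) cleanS = ∅ :=
  edge_pre_empty he fun _ _ _ _ _ h => hs h.1

theorem guessVal_cons_not_letter {e : Edge d} (he : e.OK) (hk : ∀ j, e.kind ≠ .letter j)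
    (σ : Path d e.tgt) : guessVal d (.cons e he σ) = 1 := by
  cases h : e.kind with
  | letter j => exact absurd h (hk j)
  | junk => simp [guessVal, h]
  | other => simp [guessVal, h]

/-- Guessed times inner, along a letter. -/
theorem edge_pre_kS_letter (j : Fin d.n) (k : Inner d) :
    gimg (ginv (edgeG (letterE j) (letterE_ok j))) (kS k) =
      atS .guess ∩ kS ((d.gen j)⁻¹ * k) :=
  edge_pre (letterE_ok j) fun σ b w g h => by
    constructor
    · rintro ⟨h1, -, h3⟩
      refine ⟨h1, rfl, eq_inv_mul_iff_mul_eq.2 ?_⟩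
      rw [← mul_assoc]; exact h3
    · rintro ⟨h1, -, h3⟩
      refine ⟨h1, rfl, ?_⟩
      show d.gen j * guessVal d σ * g = k
      rw [mul_assoc]; exact eq_inv_mul_iff_mul_eq.1 h3

/-- Guessed times inner, along any other edge out of the guess: the guessed value is trivial. -/
theorem edge_pre_kS_other {e : Edge d} (he : e.OK) (hs : e.src = .guess)
    (hk : ∀ j, e.kind ≠ .letter j) (k : Inner d) :
    gimg (ginv (edgeG e he)) (kS k) = atS e.tgt ∩ gS k :=
  edge_pre he fun σ b w g h => by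
    simp [kS, gS, guessVal_cons_not_letter he hk, hs]

theorem edge_pre_kS_ne {e : Edge d} (he : e.OK) (hs : e.src ≠ .guess) (k : Inner d) :
    gimg (ginv (edgeG e he)) (kS k) = ∅ :=
  edge_pre_empty he fun _ _ _ _ _ h => hs h.2.1

/-- Edges commute with outer translations. -/
theorem edgeG_hT_comm (e : Edge d) (he : e.OK) (t : Outer d) :
    gcomp (edgeG e he) (hT t) = gcomp (hT t) (edgeG e he) := by
  ext ⟨x, y⟩
  constructor
  · rintro ⟨z, ⟨σ, b, w, g, h, rfl, rfl⟩, h2⟩
    refine ⟨_, hT_apply t _, σ, b, w, g, h * t, rfl, ?_⟩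
    simp only [hT, Set.mem_ofPred_eq] at h2
    rw [h2]; simp [mul_assoc]
  · rintro ⟨z, h1, σ, b, w, g, h, rfl, rfl⟩
    obtain ⟨st, τ, b', w', g', h'⟩ := x
    simp only [hT, Set.mem_ofPred_eq, Point.mk.injEq] at h1
    obtain ⟨rfl, h2, rfl, h3, rfl, rfl⟩ := h1
    obtain rfl := eq_of_heq h2
    obtain rfl := eq_of_heq h3
    refine ⟨_, ⟨_, _, _, _, h', rfl, rfl⟩, ?_⟩
    simp [hT, mul_assoc]

/-- Edges commute with inner translations. -/
theorem edgeG_gT_comm (e : Edge d) (he : e.OK) (t : Inner d) :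
    gcomp (edgeG e he) (gT t) = gcomp (gT t) (edgeG e he) := by
  ext ⟨x, y⟩
  constructor
  · rintro ⟨z, ⟨σ, b, w, g, h, rfl, rfl⟩, h2⟩
    refine ⟨_, gT_apply t _, σ, b, w, g * t, h, rfl, ?_⟩
    simp only [gT, Set.mem_ofPred_eq] at h2
    rw [h2]
  · rintro ⟨z, h1, σ, b, w, g, h, rfl, rfl⟩
    obtain ⟨st, τ, b', w', g', h'⟩ := x
    simp only [gT, Set.mem_ofPred_eq, Point.mk.injEq] at h1
    obtain ⟨rfl, h2, rfl, h3, rfl, rfl⟩ := h1
    obtain rfl := eq_of_heq h2
    obtain rfl := eq_of_heq h3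
    exact ⟨_, ⟨_, _, _, g', _, rfl, rfl⟩, rfl⟩

theorem proj_mul : ∀ (j : Fin 3) (a b : Inner d), proj j (a * b) = proj j a * proj j b
  | 0, a, b => by simp [proj]
  | 1, a, b => by simp [proj]
  | 2, a, b => by simp [proj]

theorem proj_one : ∀ j : Fin 3, proj (d := d) j 1 = 1
  | 0 => rfl
  | 1 => rfl
  | 2 => rfl

/-- The recursion of the guessed-value maps along a letter. -/
theorem edge_uG_letter (i : Fin d.n) (j : Fin 3) :
    gcomp (edgeG (letterE i) (letterE_ok i)) (uG j) =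
      gcomp (gcomp (gT (proj j (d.gen i))) (uG j)) (edgeG (letterE i) (letterE_ok i)) := by
  have key : ∀ σ : Path d .guess, proj j (guessVal d (.cons _ (letterE_ok i) σ)) =
      proj j (d.gen i) * proj j (guessVal d σ) := fun σ => proj_mul j _ _
  ext ⟨x, y⟩
  constructor
  · rintro ⟨z, ⟨σ, b, w, g, h, rfl, rfl⟩, -, hb, h2⟩
    simp only at h2 hb
    refine ⟨_, ⟨_, gT_apply _ _, rfl, hb, rfl⟩,
      σ, b, w, g * proj j (d.gen i) * proj j (guessVal d σ), h, rfl, ?_⟩
    subst hb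
    rw [h2]
    simp only [Point.mk.injEq, heq_eq_eq, and_true, true_and, mul_assoc]
    exact congrArg (g * ·) (key σ)
  · rintro ⟨z, ⟨z', h1, -, hb, h3⟩, σ, b, w, g, h, rfl, rfl⟩
    simp only [gT, Set.mem_ofPred_eq] at h1
    subst h1
    simp only at h3 hb
    obtain ⟨st, τ, b', w', g', h'⟩ := x
    simp only [Point.mk.injEq] at h3
    obtain ⟨rfl, h4, rfl, h5, rfl, rfl⟩ := h3
    obtain rfl := eq_of_heq h4
    obtain rfl := eq_of_heq h5
    refine ⟨_, ⟨_, _, _, g', _, rfl, rfl⟩, rfl, hb, ?_⟩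
    simp only [Point.mk.injEq, heq_eq_eq, and_true, true_and, mul_assoc]
    exact (congrArg (g' * ·) (key σ)).symm

/-- The guessed-value maps are trivial after any other edge out of the guess. -/
theorem edge_uG_other {e : Edge d} (he : e.OK) (hs : e.src = .guess)
    (hk : ∀ i, e.kind ≠ .letter i) (j : Fin 3) :
    gcomp (edgeG e he) (uG j) = gcomp (gid tagS) (edgeG e he) := by
  ext ⟨x, y⟩
  constructor
  · rintro ⟨z, ⟨σ, b, w, g, h, rfl, rfl⟩, -, hb, h2⟩
    simp only [guessVal_cons_not_letter he hk, proj_one, mul_one] at h2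
    exact ⟨_, ⟨rfl, hb⟩, σ, b, w, g, h, rfl, h2⟩
  · rintro ⟨z, ⟨h1, hb⟩, σ, b, w, g, h, rfl, rfl⟩
    simp only at h1 hb
    subst h1
    refine ⟨_, ⟨σ, b, w, g, h, rfl, rfl⟩, hs, hb, ?_⟩
    simp [guessVal_cons_not_letter he hk, proj_one]

theorem edge_uG_ne {e : Edge d} (he : e.OK) (hs : e.src ≠ .guess) (j : Fin 3) :
    gcomp (edgeG e he) (uG j) = ∅ := by
  ext ⟨x, y⟩
  simp only [Set.mem_empty_iff_false, iff_false]
  rintro ⟨z, ⟨σ, b, w, g, h, rfl, rfl⟩, h1, -⟩
  exact hs h1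

end Vale.Agent.P193.Core.Facts
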