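import Mathlib.GroupTheory.Complement
import Vale.Agent.P193.Full.Core.Facts.Edges

/-! The final state and the pushing maps; translations and guessed-value maps against base sets. -/

namespace Vale.Agent.P193.Core.Facts

open FreeGroup

set_option linter.unusedSectionVars false

variable {d : Data}

/-- The image of the outer group in the inner one. -/
def innerR (d : Data) : Subgroup (Inner d) := (toInner d).range

theorem innerR_finiteIndex (hG : Good d) : (innerR d).FiniteIndex := by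
  have h2 := hG.emb2_index.index_ne_zero
  have h1 : (MonoidHom.id d.Γ₀).range = ⊤ := MonoidHom.range_eq_top.2 fun x => ⟨x, rfl⟩
  constructor
  rw [innerR, toInner, MonoidHom.range_prodMap, Subgroup.index_prod, MonoidHom.range_prodMap,
    Subgroup.index_prod]
  simp [h1, h2]

/-- A finite list of coset representatives, containing `1`. -/
def IsCosets (K : Finset (Inner d)) : Prop :=
  (∀ g, ∃ k ∈ K, g * k⁻¹ ∈ innerR d) ∧ (∀ k ∈ K, ∀ k' ∈ K, k * k'⁻¹ ∈ innerR d → k = k') ∧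
    (1 : Inner d) ∈ K

theorem exists_cosets (hG : Good d) : ∃ K : Finset (Inner d), IsCosets K := by
  classical
  have := innerR_finiteIndex hG
  obtain ⟨T, hT, h1⟩ := (innerR d).exists_isComplement_right 1
  have hfin : T.Finite := hT.finite_right_iff.2 this
  refine ⟨hfin.toFinset, fun g => ?_, fun k hk k' hk' h => ?_, hfin.mem_toFinset.2 h1⟩
  · obtain ⟨⟨⟨r, hr⟩, ⟨k, hk⟩⟩, rfl⟩ := hT.2 g
    exact ⟨k, hfin.mem_toFinset.2 hk, by simpa using hr⟩
  · rw [Set.Finite.mem_toFinset] at hk hk'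
    have := hT.1 (a₁ := (⟨k * k'⁻¹, h⟩, ⟨k', hk'⟩)) (a₂ := (⟨1, (innerR d).one_mem⟩, ⟨k, hk⟩))
      (by simp)
    simpa using (congrArg (fun p => (p.2 : Inner d)) this).symm

theorem thetaG_apply (x : Point d) :
    (x, (⟨.fin, .nil, false, .theta x.σ x.tag x.w x.g, toInner d x.h, 1⟩ : Point d)) ∈ thetaG := rfl

theorem uG_apply (j : Fin 3) {x : Point d} (h1 : x.st = .guess) (h2 : x.tag = true) :
    (x, { x with g := x.g * proj j (guessVal d x.σ) }) ∈ uG j := ⟨h1, h2, rfl⟩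

theorem gran_thetaG : gran (thetaG (d := d)) = {x | ∃ s, ∃ σ : Path d s, ∃ b w g' h,
    x = ⟨.fin, .nil, false, .theta σ b w g', toInner d h, 1⟩} := by
  ext x
  constructor
  · rintro ⟨⟨s, σ, b, w, g', h⟩, e⟩; exact ⟨s, σ, b, w, g', h, e⟩
  · rintro ⟨s, σ, b, w, g', h, rfl⟩; exact ⟨_, thetaG_apply ⟨s, σ, b, w, g', h⟩⟩

/-- The part of the final state under the theta constructor in the coset of `k`. -/
def thetaS (k : Inner d) : Set (Point d) :=
  {x | ∃ s, ∃ σ : Path d s, ∃ b w g' g, g * k⁻¹ ∈ innerR d ∧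
    x = ⟨.fin, .nil, false, .theta σ b w g', g, 1⟩}

theorem thetaS_eq (k : Inner d) : thetaS k = gimg (gT k) (gran (thetaG (d := d))) := by
  rw [gran_thetaG]
  ext x
  rw [mem_gimg_gT]
  constructor
  · rintro ⟨s, σ, b, w, g', g, ⟨h, hh⟩, rfl⟩
    exact ⟨s, σ, b, w, g', h, by rw [hh]⟩
  · rintro ⟨s, σ, b, w, g', h, hx⟩
    obtain ⟨st, τ, b', w', g, h'⟩ := x
    simp only [Point.mk.injEq] at hx
    obtain ⟨rfl, h2, rfl, h3, h4, rfl⟩ := hx
    obtain rfl := eq_of_heq h2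
    obtain rfl := eq_of_heq h3
    exact ⟨s, σ, b, w, g', g, ⟨h, h4.symm⟩, rfl⟩

theorem thetaS_one : thetaS (1 : Inner d) = gran (thetaG (d := d)) := by
  rw [thetaS_eq, gT_one, gimg_gid, Set.inter_univ]

/-- The point predicate part of the exposed final state. -/
theorem finD_eq {K : Finset (Inner d)} (hK : IsCosets K) :
    atS .fin ∩ hOneS ∩ tagSᶜ =
      baseS ∪ (⋃ k ∈ K, thetaS k) ∪ gran (omDG (d := d)) ∪ gran (omKG (d := d)) := by
  ext x
  constructor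
  · rintro ⟨⟨h1, h2⟩, h3⟩
    obtain ⟨st, σ, b, w, g, h⟩ := x
    cases (show st = .fin from h1)
    cases (show h = 1 from h2)
    cases b with
    | true => exact absurd rfl h3
    | false =>
      obtain rfl := path_fin σ
      cases w with
      | base => exact Or.inl (Or.inl (Or.inl ⟨g, rfl⟩))
      | theta τ b w g' =>
        obtain ⟨k, hk, hk'⟩ := hK.1 g
        exact Or.inl (Or.inl (Or.inr (Set.mem_biUnion hk ⟨_, τ, b, w, g', g, hk', rfl⟩)))
      | omD τ c k =>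
        exact Or.inl (Or.inr ⟨⟨_, τ, false, c, g, k⟩, _, τ, c, g, k, rfl, rfl⟩)
      | omK τ c k =>
        refine Or.inr ⟨⟨_, τ, false, c, (guessVal d τ)⁻¹ * g, k⟩, τ, c, _, k, rfl, ?_⟩
        rw [mul_inv_cancel_left]
  · rintro (((⟨g, rfl⟩ | hx) | ⟨y, s, σ, c, g, h, -, rfl⟩) | ⟨y, σ, c, g, h, -, rfl⟩)
    · exact ⟨⟨rfl, rfl⟩, nofun⟩
    · obtain ⟨k, -, s, σ, b, w, g', g, -, rfl⟩ := Set.mem_iUnion₂.1 hx
      exact ⟨⟨rfl, rfl⟩, nofun⟩
    · exact ⟨⟨rfl, rfl⟩, nofun⟩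
    · exact ⟨⟨rfl, rfl⟩, nofun⟩

theorem finD_disjoint :
    Disjoint (baseS (d := d)) (gran omDG) ∧ Disjoint (baseS (d := d)) (gran omKG) ∧
      Disjoint (gran (omDG (d := d))) (gran omKG) ∧
      (∀ k : Inner d, Disjoint baseS (thetaS k) ∧ Disjoint (thetaS k) (gran omDG) ∧
        Disjoint (thetaS k) (gran omKG)) ∧
      ∀ k k' : Inner d, k * k'⁻¹ ∉ innerR d → Disjoint (thetaS k) (thetaS k') := by
  simp only [Set.disjoint_left]
  refine ⟨?_, ?_, ?_, fun k => ⟨?_, ?_, ?_⟩, fun k k' hne => ?_⟩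
  · rintro x ⟨g, rfl⟩ ⟨y, s, σ, c, g', h, -, e⟩; simp at e
  · rintro x ⟨g, rfl⟩ ⟨y, σ, c, g', h, -, e⟩; simp at e
  · rintro x ⟨y, s, σ, c, g, h, -, rfl⟩ ⟨y', σ', c', g', h', -, e⟩; simp at e
  · rintro x ⟨g, rfl⟩ ⟨s, σ, b, w, g', g'', -, e⟩; simp at e
  · rintro x ⟨s, σ, b, w, g', g'', -, rfl⟩ ⟨y, s', σ', c, g, h, -, e⟩; simp at e
  · rintro x ⟨s, σ, b, w, g', g'', -, rfl⟩ ⟨y, σ', c, g, h, -, e⟩; simp at e
  · rintro x ⟨s, σ, b, w, g', g, hk, rfl⟩ ⟨s', σ', b', w', g'', g₁, hk', e⟩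
    simp only [Point.mk.injEq] at e
    obtain rfl : g = g₁ := e.2.2.2.2.1
    apply hne
    have := (innerR d).mul_mem ((innerR d).inv_mem hk) hk'
    simpa [mul_assoc] using this

/-- The exposed final state without point predicate. -/
theorem finC_eq :
    atS .fin ∩ hOneS ∩ tagS = gran (omCG (d := d)) ∪ gran (tG (d := d)) := by
  ext x
  constructor
  · rintro ⟨⟨h1, h2⟩, h3⟩
    obtain ⟨st, σ, b, w, g, h⟩ := x
    cases (show st = .fin from h1)
    cases (show h = 1 from h2)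
    cases (show b = true from h3)
    obtain rfl := path_fin σ
    cases w with
    | omC τ c k => exact Or.inl ⟨⟨_, τ, true, c, g, k⟩, _, τ, c, g, k, rfl, rfl⟩
    | tpush c => exact Or.inr ⟨⟨_, .nil, false, c, g, 1⟩, c, g, rfl, rfl⟩
  · rintro (⟨y, s, σ, c, g, h, -, rfl⟩ | ⟨y, c, g, -, rfl⟩) <;> exact ⟨⟨rfl, rfl⟩, rfl⟩

theorem finC_disjoint : Disjoint (gran (omCG (d := d))) (gran tG) :=
  Set.disjoint_left.2 fun _ ⟨_, _, _, _, _, _, _, e⟩ ⟨_, _, _, _, e'⟩ => by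
    dsimp only at e e'
    rw [e] at e'; simp at e'

theorem gran_theta_subset : gran (thetaG (d := d)) ⊆ atS .fin ∩ hOneS ∩ tagSᶜ := by
  rintro x ⟨y, h⟩
  simp only [thetaG, Set.mem_ofPred_eq] at h
  subst h; exact ⟨⟨rfl, rfl⟩, nofun⟩

theorem gran_omD_subset : gran (omDG (d := d)) ⊆ atS .fin ∩ hOneS ∩ tagSᶜ := by
  rintro x ⟨y, s, σ, c, g, h, -, rfl⟩; exact ⟨⟨rfl, rfl⟩, nofun⟩

theorem gran_omK_subset : gran (omKG (d := d)) ⊆ atS .fin ∩ hOneS ∩ tagSᶜ := by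
  rintro x ⟨y, σ, c, g, h, -, rfl⟩; exact ⟨⟨rfl, rfl⟩, nofun⟩

/-- At the final state the exposed offset is trivial. -/
theorem fin_hOne_subset_zOne : atS (.fin : State d) ∩ hOneS ⊆ zOneS := by
  rintro ⟨st, σ, b, w, g, h⟩ ⟨h1, h2⟩
  cases (show st = .fin from h1)
  cases (show h = 1 from h2)
  simp [zOneS, zval, path_fin σ, offset]

theorem gdom_hT (t : Outer d) : gdom (hT t) = Set.univ :=
  Set.eq_univ_of_forall fun x => ⟨_, hT_apply t x⟩

theorem gdom_gT (t : Inner d) : gdom (gT t) = Set.univ :=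
  Set.eq_univ_of_forall fun x => ⟨_, gT_apply t x⟩

theorem gran_hT (t : Outer d) : gran (hT t) = Set.univ :=
  Set.eq_univ_of_forall fun x => ⟨{ x with h := x.h * t⁻¹ }, by simp [hT]⟩

theorem gran_gT (t : Inner d) : gran (gT t) = Set.univ :=
  Set.eq_univ_of_forall fun x => ⟨{ x with g := x.g * t⁻¹ }, by simp [gT]⟩

theorem gdom_uG (j : Fin 3) : gdom (uG (d := d) j) = atS .guess ∩ tagS :=
  Set.ext fun _ => ⟨fun ⟨_, h1, h2, _⟩ => ⟨h1, h2⟩, fun h => ⟨_, uG_apply j h.1 h.2⟩⟩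

theorem gran_uG (j : Fin 3) : gran (uG (d := d) j) = atS .guess ∩ tagS := by
  ext x
  constructor
  · rintro ⟨y, h1, h2, h3⟩
    simp only at h3
    subst h3; exact ⟨h1, h2⟩
  · rintro ⟨h1, h2⟩
    exact ⟨{ x with g := x.g * (proj j (guessVal d x.σ))⁻¹ }, h1, h2, by simp⟩

theorem gdom_thetaG : gdom (thetaG (d := d)) = Set.univ :=
  Set.eq_univ_of_forall fun x => ⟨_, thetaG_apply x⟩

theorem gdom_omCG : gdom (omCG (d := d)) = tagS := by
  ext x
  constructor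
  · rintro ⟨y, s, σ, c, g, h, rfl, -⟩; rfl
  · intro hx
    obtain ⟨st, σ, b, w, g, h⟩ := x
    cases (show b = true from hx)
    exact ⟨_, st, σ, w, g, h, rfl, rfl⟩

theorem gdom_omDG : gdom (omDG (d := d)) = tagSᶜ := by
  ext x
  constructor
  · rintro ⟨y, s, σ, c, g, h, rfl, -⟩; exact nofun
  · intro hx
    obtain ⟨st, σ, b, w, g, h⟩ := x
    cases b with
    | true => exact absurd rfl hx
    | false => exact ⟨_, st, σ, w, g, h, rfl, rfl⟩

theorem gdom_omKG : gdom (omKG (d := d)) = atS .guess ∩ tagSᶜ := by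
  ext x
  constructor
  · rintro ⟨y, σ, c, g, h, rfl, -⟩; exact ⟨rfl, nofun⟩
  · rintro ⟨h1, hx⟩
    obtain ⟨st, σ, b, w, g, h⟩ := x
    cases (show st = .guess from h1)
    cases b with
    | true => exact absurd rfl hx
    | false => exact ⟨_, σ, w, g, h, rfl, rfl⟩

theorem gdom_tG : gdom (tG (d := d)) = atS .fin ∩ hOneS ∩ tagSᶜ := by
  ext x
  constructor
  · rintro ⟨y, c, g, rfl, -⟩; exact ⟨⟨rfl, rfl⟩, nofun⟩
  · rintro ⟨⟨h1, h2⟩, hx⟩
    obtain ⟨st, σ, b, w, g, h⟩ := x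
    cases (show st = .fin from h1)
    cases (show h = 1 from h2)
    obtain rfl := path_fin σ
    cases b with
    | true => exact absurd rfl hx
    | false => exact ⟨_, w, g, rfl, rfl⟩

/-- The point predicate, seen through `omD`. -/
theorem omD_pre_gS (k : Inner d) : gimg (ginv omDG) (gS k) = gS k := by
  ext x
  constructor
  · rintro ⟨y, hy, s, σ, c, g, h, rfl, rfl⟩; exact hy
  · intro hx
    obtain ⟨st, σ, b, w, g, h⟩ := x
    obtain ⟨hb, hg⟩ := hx
    dsimp only at hb hg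
    subst hb hg
    exact ⟨_, ⟨rfl, rfl⟩, st, σ, w, g, h, rfl, rfl⟩

/-- The point predicate, seen through `omK`. -/
theorem omK_pre_gS (k : Inner d) : gimg (ginv omKG) (gS k) = kS k := by
  ext x
  constructor
  · rintro ⟨y, hy, σ, c, g, h, rfl, rfl⟩; exact ⟨rfl, rfl, hy.2⟩
  · intro hx
    obtain ⟨st, σ, b, w, g, h⟩ := x
    obtain ⟨hb, hs, hg⟩ := hx
    dsimp only at hb hs hg
    subst hb hs hg
    exact ⟨_, ⟨rfl, rfl⟩, σ, w, g, h, rfl, rfl⟩

/-- The point predicate, seen through theta, on a value in the image of the outer group. -/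
theorem theta_pre_gS (hG : Good d) (t : Outer d) :
    gimg (ginv thetaG) (gS (toInner d t)) = hS t := by
  ext x
  constructor
  · rintro ⟨y, hy, h⟩
    dsimp [thetaG, ginv] at h
    subst h; exact toInner_inj hG hy.2
  · intro hx
    refine ⟨_, ?_, thetaG_apply x⟩
    exact ⟨rfl, congrArg (toInner d) hx⟩

theorem theta_pre_gOne (hG : Good d) : gimg (ginv thetaG) gOneS = (hOneS : Set (Point d)) := by
  simpa [gS_one, hS_one] using theta_pre_gS hG (1 : Outer d)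

/-- The point predicate, seen through theta, on the other values. -/
theorem theta_pre_gS_out {k : Inner d} (hk : k ∉ innerR d) :
    gimg (ginv thetaG) (gS k) = ∅ := by
  ext x
  simp only [Set.mem_empty_iff_false, iff_false]
  rintro ⟨y, hy, h⟩
  dsimp [thetaG, ginv] at h
  subst h; exact hk ⟨x.h, hy.2⟩

theorem theta_equiv (t : Outer d) :
    gcomp (hT t) thetaG = gcomp thetaG (gT (toInner d t)) := by
  ext ⟨x, y⟩
  constructor
  · rintro ⟨z, h1, h2⟩
    refine ⟨_, thetaG_apply x, ?_⟩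
    simp only [hT, thetaG, gT, Set.mem_ofPred_eq] at h1 h2 ⊢
    rw [h2, h1]; simp
  · rintro ⟨z, h1, h2⟩
    refine ⟨_, hT_apply t x, ?_⟩
    simp only [thetaG, gT, Set.mem_ofPred_eq] at h1 h2 ⊢
    rw [h2, h1]; simp

theorem omCG_gT_comm (t : Inner d) : gcomp omCG (gT t) = gcomp (gT t) omCG := by
  ext ⟨x, y⟩
  constructor
  · rintro ⟨z, ⟨s, σ, c, g, h, rfl, rfl⟩, h2⟩
    exact ⟨_, gT_apply t _, s, σ, c, g * t, h, rfl, h2⟩
  · rintro ⟨z, h1, s, σ, c, g, h, rfl, rfl⟩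
    obtain ⟨st, τ, b, w, g', h'⟩ := x
    simp only [gT, Set.mem_ofPred_eq, Point.mk.injEq] at h1
    obtain ⟨rfl, h2, rfl, h3, rfl, rfl⟩ := h1
    obtain rfl := eq_of_heq h2
    obtain rfl := eq_of_heq h3
    exact ⟨_, ⟨_, _, _, g', h, rfl, rfl⟩, rfl⟩

theorem omDG_gT_comm (t : Inner d) : gcomp omDG (gT t) = gcomp (gT t) omDG := by
  ext ⟨x, y⟩
  constructor
  · rintro ⟨z, ⟨s, σ, c, g, h, rfl, rfl⟩, h2⟩
    exact ⟨_, gT_apply t _, s, σ, c, g * t, h, rfl, h2⟩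
  · rintro ⟨z, h1, s, σ, c, g, h, rfl, rfl⟩
    obtain ⟨st, τ, b, w, g', h'⟩ := x
    simp only [gT, Set.mem_ofPred_eq, Point.mk.injEq] at h1
    obtain ⟨rfl, h2, rfl, h3, rfl, rfl⟩ := h1
    obtain rfl := eq_of_heq h2
    obtain rfl := eq_of_heq h3
    exact ⟨_, ⟨_, _, _, g', h, rfl, rfl⟩, rfl⟩

theorem omKG_gT_comm (t : Inner d) : gcomp omKG (gT t) = gcomp (gT t) omKG := by
  ext ⟨x, y⟩
  constructor
  · rintro ⟨z, ⟨σ, c, g, h, rfl, rfl⟩, h2⟩
    refine ⟨_, gT_apply t _, σ, c, g * t, h, rfl, ?_⟩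
    simp only [gT, Set.mem_ofPred_eq] at h2
    simp only
    rw [h2]; simp [mul_assoc]
  · rintro ⟨z, h1, σ, c, g, h, rfl, rfl⟩
    obtain ⟨st, τ, b, w, g', h'⟩ := x
    simp only [gT, Set.mem_ofPred_eq, Point.mk.injEq] at h1
    obtain ⟨rfl, h2, rfl, h3, rfl, rfl⟩ := h1
    obtain rfl := eq_of_heq h2
    obtain rfl := eq_of_heq h3
    exact ⟨_, ⟨_, _, g', h, rfl, rfl⟩, by simp [gT, mul_assoc]⟩

theorem tG_gT_comm (t : Inner d) : gcomp tG (gT t) = gcomp (gT t) tG := by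
  ext ⟨x, y⟩
  constructor
  · rintro ⟨z, ⟨c, g, rfl, rfl⟩, h2⟩
    exact ⟨_, gT_apply t _, c, g * t, rfl, h2⟩
  · rintro ⟨z, h1, c, g, rfl, rfl⟩
    obtain ⟨st, τ, b, w, g', h'⟩ := x
    simp only [gT, Set.mem_ofPred_eq, Point.mk.injEq] at h1
    obtain ⟨rfl, h2, rfl, h3, rfl, rfl⟩ := h1
    obtain rfl := eq_of_heq h2
    obtain rfl := eq_of_heq h3
    exact ⟨_, ⟨_, g', rfl, rfl⟩, rfl⟩

theorem uG_hT_comm (j : Fin 3) (t : Outer d) :
    gcomp (uG j) (hT t) = gcomp (hT t) (uG j) := by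
  ext ⟨x, y⟩
  constructor
  · rintro ⟨z, ⟨h1, h2, h3⟩, h4⟩
    refine ⟨_, hT_apply t x, h1, h2, ?_⟩
    simp only [hT, Set.mem_ofPred_eq] at h3 h4 ⊢
    rw [h4, h3]
  · rintro ⟨z, h4, h1, h2, h3⟩
    simp only [hT, Set.mem_ofPred_eq] at h3 h4
    subst h4
    exact ⟨{ x with g := x.g * proj j (guessVal d x.σ) }, ⟨h1, h2, rfl⟩, h3⟩

theorem proj_comm : ∀ (i j : Fin 3), i ≠ j → ∀ (a b : Inner d), Commute (proj i a) (proj j b) := by
  intro i j h a b
  match i, j with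
  | 0, 0 | 1, 1 | 2, 2 => exact absurd rfl h
  | 0, 1 | 0, 2 | 1, 0 | 1, 2 | 2, 0 | 2, 1 => simp [Commute, SemiconjBy, proj]

theorem proj_comm_of_eq_one : ∀ (j : Fin 3) {t : Inner d}, proj j t = 1 →
    ∀ a, Commute (proj j a) t := by
  intro j t h a
  match j with
  | 0 | 1 | 2 =>
    obtain ⟨t0, t1, t2⟩ := t
    simp [proj] at h
    simp [Commute, SemiconjBy, proj, h]

/-- A value splits into its three coordinates. -/
theorem proj_split (m : Inner d) : proj 0 m * proj 1 m * proj 2 m = m := by simp [proj]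

theorem gT_split (m : Inner d) :
    gcomp (gcomp (gT (proj 0 m)) (gT (proj 1 m))) (gT (proj 2 m)) = gT m := by
  rw [gT_mul, gT_mul, proj_split]

theorem uG_comm {i j : Fin 3} (hij : i ≠ j) :
    gcomp (uG (d := d) i) (uG j) = gcomp (uG j) (uG i) := by
  ext ⟨x, y⟩
  constructor <;>
  · rintro ⟨z, ⟨h1, h2, h3⟩, -, -, h4⟩
    refine ⟨_, uG_apply _ h1 h2, h1, h2, ?_⟩
    simp only at h3
    subst h3
    simp only at h4
    subst h4
    simp only [mul_assoc]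
    rw [(proj_comm i j hij _ _).eq]

/-- Translations in the other coordinates commute with a guessed-value map. -/
theorem uG_gT_comm (j : Fin 3) {t : Inner d} (ht : proj j t = 1) :
    gcomp (uG j) (gT t) = gcomp (gT t) (uG j) := by
  ext ⟨x, y⟩
  constructor
  · rintro ⟨z, ⟨h1, h2, h3⟩, h4⟩
    refine ⟨_, gT_apply t x, h1, h2, ?_⟩
    simp only [gT, Set.mem_ofPred_eq] at h3 h4 ⊢
    subst h3 h4
    simp only [mul_assoc, (proj_comm_of_eq_one j ht _).eq]
  · rintro ⟨z, h4, h1, h2, h3⟩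
    simp only [gT, Set.mem_ofPred_eq] at h3 h4
    subst h4 h3
    refine ⟨{ x with g := x.g * proj j (guessVal d x.σ) }, ⟨h1, h2, rfl⟩, ?_⟩
    simp only [gT, Set.mem_ofPred_eq, mul_assoc, (proj_comm_of_eq_one j ht _).eq]

/-- A guessed-value map keeps every set that does not look at the inner coordinate. -/
theorem uG_img_of (j : Fin 3) {B : Set (Point d)}
    (hB : ∀ (x : Point d) (g : Inner d), { x with g := g } ∈ B ↔ x ∈ B) :
    gimg (uG j) B = atS .guess ∩ tagS ∩ B := by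
  ext x
  constructor
  · rintro ⟨y, hy, h1, h2, h3⟩
    simp only at h3
    subst h3
    exact ⟨⟨h1, h2⟩, (hB y _).2 hy⟩
  · rintro ⟨⟨h1, h2⟩, hx⟩
    refine ⟨{ x with g := x.g * (proj j (guessVal d x.σ))⁻¹ }, (hB x _).2 hx, h1, h2, ?_⟩
    simp

/-- A translation keeps every set that does not look at the translated coordinate. -/
theorem gT_img_of (t : Inner d) {B : Set (Point d)}
    (hB : ∀ (x : Point d) (g : Inner d), { x with g := g } ∈ B ↔ x ∈ B) :
    gimg (gT t) B = B := by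
  ext x; rw [mem_gimg_gT]; exact hB x _

theorem hT_img_of (t : Outer d) {B : Set (Point d)}
    (hB : ∀ (x : Point d) (h : Outer d), { x with h := h } ∈ B ↔ x ∈ B) :
    gimg (hT t) B = B := by
  ext x; rw [mem_gimg_hT]; exact hB x _

theorem gT_img_gS (t k : Inner d) : gimg (gT t) (gS k) = gS (k * t) := by
  ext x
  rw [mem_gimg_gT]
  simp [gS, mul_inv_eq_iff_eq_mul]

theorem gT_img_kS (t k : Inner d) : gimg (gT t) (kS k) = kS (k * t) := by
  ext x
  rw [mem_gimg_gT]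
  simp [kS, ← mul_assoc, mul_inv_eq_iff_eq_mul]

theorem hT_img_hS (t s : Outer d) : gimg (hT t) (hS s) = hS (s * t) := by
  ext x
  rw [mem_gimg_hT]
  simp [hS, mul_inv_eq_iff_eq_mul]

end Vale.Agent.P193.Core.Facts
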