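import Vale.Agent.P193.Full.Core.Junk

/-! Names for the generating graphs and base sets of the core model, and how graphs move sets. -/

namespace Vale.Agent.P193.Core.Facts

open FreeGroup

set_option linter.unusedSectionVars false

section
variable {S : Type}

/-- Image of a set under a graph. -/
def gimg (m : Set (S × S)) (e : Set S) : Set S := {t | ∃ s ∈ e, (s, t) ∈ m}

theorem mem_gimg {m : Set (S × S)} {e : Set S} {t : S} :
    t ∈ gimg m e ↔ ∃ s ∈ e, (s, t) ∈ m := Iff.rfl

theorem gimg_univ (m : Set (S × S)) : gimg m Set.univ = gran m := by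
  ext t; simp [gimg, gran]

theorem gimg_empty (m : Set (S × S)) : gimg m ∅ = ∅ := by
  ext t; simp [gimg]

theorem gimg_union (m : Set (S × S)) (a b : Set S) : gimg m (a ∪ b) = gimg m a ∪ gimg m b := by
  ext t; simp [gimg, or_and_right, exists_or]

theorem gimg_inter {m : Set (S × S)} (hm : IsPB m) (a b : Set S) :
    gimg m (a ∩ b) = gimg m a ∩ gimg m b := by
  ext t
  constructor
  · rintro ⟨s, ⟨ha, hb⟩, h⟩; exact ⟨⟨s, ha, h⟩, s, hb, h⟩
  · rintro ⟨⟨s, ha, h⟩, s', hb, h'⟩
    exact ⟨s, ⟨ha, hm.2 _ _ _ h' h ▸ hb⟩, h⟩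

theorem gimg_comp (m n : Set (S × S)) (e : Set S) : gimg (gcomp m n) e = gimg n (gimg m e) := by
  ext t
  constructor
  · rintro ⟨s, hs, y, h1, h2⟩; exact ⟨y, ⟨s, hs, h1⟩, h2⟩
  · rintro ⟨y, ⟨s, hs, h1⟩, h2⟩; exact ⟨s, hs, y, h1, h2⟩

theorem gimg_gid (a e : Set S) : gimg (gid a) e = e ∩ a := by
  ext t
  constructor
  · rintro ⟨s, hs, h1, h2⟩
    obtain rfl : s = t := h1
    exact ⟨hs, h2⟩
  · rintro ⟨h1, h2⟩; exact ⟨t, h1, rfl, h2⟩

theorem isPB_gid (a : Set S) : IsPB (gid a) :=
  ⟨fun _ _ _ h h' => h.1.symm.trans h'.1, fun _ _ _ h h' => h.1.trans h'.1.symm⟩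

/-- A graph of the shape `y = f x` on a domain, with a left inverse there, is a partial bijection. -/
theorem isPB_of_graph {m : Set (S × S)} (f : S → S) (hf : ∀ p ∈ m, p.2 = f p.1) (g : S → S)
    (hg : ∀ p ∈ m, p.1 = g p.2) : IsPB m :=
  ⟨fun x y z h h' => (hf _ h).trans (hf _ h').symm, fun x y z h h' => (hg _ h).trans (hg _ h').symm⟩

/-- A set pulled back along a graph and pushed forward again. -/
theorem gid_gcomp_of {m : Set (S × S)} (hm : IsPB m) (b : Set S) :
    gcomp m (gid b) = gcomp (gid (gimg (ginv m) b)) m := by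
  ext ⟨x, y⟩
  constructor
  · rintro ⟨z, h1, h2, h3⟩
    obtain rfl : z = y := h2
    exact ⟨x, ⟨rfl, z, h3, h1⟩, h1⟩
  · rintro ⟨z, ⟨h1, w, hw, hw'⟩, h2⟩
    obtain rfl : x = z := h1
    obtain rfl : w = y := hm.1 _ _ _ hw' h2
    exact ⟨w, h2, rfl, hw⟩

end

variable {d : Data}

/-- Right translation of the outer coordinate. -/
def hT (t : Outer d) : Set (Point d × Point d) := {p | p.2 = { p.1 with h := p.1.h * t }}

/-- Right translation of the inner coordinate. -/
def gT (t : Inner d) : Set (Point d × Point d) := {p | p.2 = { p.1 with g := p.1.g * t }}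

/-- The graph of an edge. -/
def edgeG (e : Edge d) (he : e.OK) : Set (Point d × Point d) :=
  {p | ∃ σ b w g h, p.1 = ⟨e.tgt, σ, b, w, g, h⟩ ∧
    p.2 = ⟨e.src, .cons e he σ, b, w, g, (1, e.pval, e.qval) * h⟩}

/-- The three coordinate projections of the inner group. -/
def proj : Fin 3 → Inner d → Inner d
  | 0, m => (m.1, 1, 1)
  | 1, m => (1, m.2.1, 1)
  | 2, m => (1, 1, m.2.2)

/-- The coordinate `j` of the guessed value, multiplied on at the tag without point predicate. -/
def uG (j : Fin 3) : Set (Point d × Point d) :=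
  {p | p.1.st = .guess ∧ p.1.tag = true ∧
    p.2 = { p.1 with g := p.1.g * proj j (guessVal d p.1.σ) }}

/-- Pushing everything under a theta constructor. -/
def thetaG : Set (Point d × Point d) :=
  {p | p.2 = ⟨.fin, .nil, false, .theta p.1.σ p.1.tag p.1.w p.1.g, toInner d p.1.h, 1⟩}

/-- Pushing the tag without point predicate. -/
def omCG : Set (Point d × Point d) :=
  {p | ∃ s, ∃ σ : Path d s, ∃ c g h, p.1 = ⟨s, σ, true, c, g, h⟩ ∧
    p.2 = ⟨.fin, .nil, true, .omC σ c h, g, 1⟩}

/-- Pushing the tag with point predicate. -/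
def omDG : Set (Point d × Point d) :=
  {p | ∃ s, ∃ σ : Path d s, ∃ c g h, p.1 = ⟨s, σ, false, c, g, h⟩ ∧
    p.2 = ⟨.fin, .nil, false, .omD σ c h, g, 1⟩}

/-- Pushing the guess state, applying the guessed value. -/
def omKG : Set (Point d × Point d) :=
  {p | ∃ σ : Path d .guess, ∃ c g h, p.1 = ⟨.guess, σ, false, c, g, h⟩ ∧
    p.2 = ⟨.fin, .nil, false, .omK σ c h, guessVal d σ * g, 1⟩}

/-- Changing the tag of a pushed stack. -/
def tG : Set (Point d × Point d) :=
  {p | ∃ c g, p.1 = ⟨.fin, .nil, false, c, g, 1⟩ ∧ p.2 = ⟨.fin, .nil, true, .tpush c, g, 1⟩}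

/-- The points at a state. -/
def atS (s : State d) : Set (Point d) := {x | x.st = s}

/-- The points whose path begins with a given edge. -/
def edgeS (e : Edge d) : Set (Point d) :=
  {x | ∃ he σ b w g h, x = ⟨e.src, .cons e he σ, b, w, g, h⟩}

/-- The points with a given outer coordinate. -/
def hS (t : Outer d) : Set (Point d) := {x | x.h = t}

/-- The points with trivial outer coordinate. -/
def hOneS : Set (Point d) := {x | x.h = 1}

/-- The tag without point predicate. -/
def tagS : Set (Point d) := {x | x.tag = true}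

/-- Clean paths at the guess state. -/
def cleanS : Set (Point d) := {x | x.st = .guess ∧ clean d x.σ}

/-- A given inner coordinate at the tag with point predicate. -/
def gS (k : Inner d) : Set (Point d) := {x | x.tag = false ∧ x.g = k}

/-- Trivial inner coordinate at the tag with point predicate. -/
def gOneS : Set (Point d) := {x | x.tag = false ∧ x.g = 1}

/-- A given value of guessed times inner coordinate. -/
def kS (k : Inner d) : Set (Point d) :=
  {x | x.tag = false ∧ x.st = .guess ∧ guessVal d x.σ * x.g = k}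

/-- Guessed times inner coordinate is trivial. -/
def kOneS : Set (Point d) := {x | x.tag = false ∧ x.st = .guess ∧ guessVal d x.σ * x.g = 1}

/-- The points seeing a given offset. -/
def zS (z : FA d) : Set (Point d) := {x | zval d x = z}

/-- The points seeing the trivial offset. -/
def zOneS : Set (Point d) := {x | zval d x = 1}

section
variable [DecidableEq d.M.A]

/-- The points seeing an offset that begins with a given word. -/
def zCone (w : List (Ltr d × Bool)) : Set (Point d) := {x | w <+: (zval d x).toWord}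

/-- The points seeing an offset with a given first letter. -/
def zFrontS (s : Ltr d × Bool) : Set (Point d) := {x | (zval d x).toWord.head? = some s}

end

/-- The base part of the final state. -/
def baseS : Set (Point d) :=
  {x | ∃ g, x = ⟨.fin, .nil, false, .base, g, 1⟩}

theorem gen_atS (s : State d) : Gen d (gid (atS s)) := Gen.atState s

theorem gen_edgeG (e : Edge d) (he : e.OK) : Gen d (edgeG e he) := Gen.edge e he

theorem gen_hT₀ (k : d.Γ₀) (hk : k ∈ d.subGens) : Gen d (hT (k, 1, 1)) := Gen.outer₀ k hk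

theorem gen_hT₁ (a : Ltr d) : Gen d (hT (1, FreeGroup.of a, 1)) := Gen.outer₁ a

theorem gen_hT₂ (a : Ltr d) : Gen d (hT (1, 1, FreeGroup.of a)) := Gen.outer₂ a

theorem gen_gT (i : Fin d.n) : Gen d (gT (d.gen i)) := Gen.inner i

theorem gen_zOneS : Gen d (gid zOneS) := Gen.zOne

theorem gen_zFrontS [DecidableEq d.M.A] (s : Ltr d × Bool) : Gen d (gid (zFrontS s)) :=
  Gen.zFront s

theorem gen_hOneS : Gen d (gid hOneS) := Gen.hOne

theorem gen_tagS : Gen d (gid tagS) := Gen.tagC

theorem gen_cleanS : Gen d (gid cleanS) := Gen.cleanSet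

theorem gen_gOneS : Gen d (gid gOneS) := Gen.gOne

theorem gen_kOneS : Gen d (gid kOneS) := Gen.kSet

theorem gen_uG : ∀ j : Fin 3, Gen d (uG j)
  | 0 => Gen.uMap₀
  | 1 => Gen.uMap₁
  | 2 => Gen.uMap₂

theorem gen_thetaG : Gen d (thetaG (d := d)) := Gen.theta

theorem gen_omCG : Gen d (omCG (d := d)) := Gen.omC

theorem gen_omDG : Gen d (omDG (d := d)) := Gen.omD

theorem gen_omKG : Gen d (omKG (d := d)) := Gen.omK

theorem gen_tG : Gen d (tG (d := d)) := Gen.tMap

theorem hS_one : hS (1 : Outer d) = hOneS := rfl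

theorem gS_one : gS (1 : Inner d) = gOneS := rfl

theorem kS_one : kS (1 : Inner d) = kOneS := rfl

theorem zS_one : zS (1 : FA d) = zOneS := rfl

/-- Every path at the final state is empty. -/
theorem path_fin : ∀ σ : Path d (.fin : State d), σ = .nil := by
  classical
  intro σ
  exact Path.eq_of_edges (by rw [Path.edges_nil σ]; rfl)

theorem guessVal_cons_letter (j : Fin d.n) (σ : Path d .guess) :
    guessVal d (.cons _ (Edge.OK.letter j) σ) = d.gen j * guessVal d σ := rfl

theorem hT_apply (t : Outer d) (x : Point d) : (x, { x with h := x.h * t }) ∈ hT t := rfl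

theorem gT_apply (t : Inner d) (x : Point d) : (x, { x with g := x.g * t }) ∈ gT t := rfl

theorem mem_gimg_hT {t : Outer d} {e : Set (Point d)} {x : Point d} :
    x ∈ gimg (hT t) e ↔ { x with h := x.h * t⁻¹ } ∈ e := by
  constructor
  · rintro ⟨y, hy, h⟩
    simp only [hT, Set.mem_ofPred_eq] at h
    subst h; simpa using hy
  · intro hx; exact ⟨_, hx, by simp [hT]⟩

theorem mem_gimg_gT {t : Inner d} {e : Set (Point d)} {x : Point d} :
    x ∈ gimg (gT t) e ↔ { x with g := x.g * t⁻¹ } ∈ e := by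
  constructor
  · rintro ⟨y, hy, h⟩
    simp only [gT, Set.mem_ofPred_eq] at h
    subst h; simpa using hy
  · intro hx; exact ⟨_, hx, by simp [gT]⟩

theorem hT_mul (s t : Outer d) : gcomp (hT s) (hT t) = hT (s * t) := by
  ext ⟨x, y⟩
  constructor
  · rintro ⟨z, h1, h2⟩
    simp only [hT, Set.mem_ofPred_eq] at h1 h2 ⊢
    rw [h2, h1]; simp [mul_assoc]
  · intro h
    refine ⟨_, hT_apply s x, ?_⟩
    simp only [hT, Set.mem_ofPred_eq] at h ⊢
    rw [h]; simp [mul_assoc]

theorem gT_mul (s t : Inner d) : gcomp (gT s) (gT t) = gT (s * t) := by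
  ext ⟨x, y⟩
  constructor
  · rintro ⟨z, h1, h2⟩
    simp only [gT, Set.mem_ofPred_eq] at h1 h2 ⊢
    rw [h2, h1]; simp [mul_assoc]
  · intro h
    refine ⟨_, gT_apply s x, ?_⟩
    simp only [gT, Set.mem_ofPred_eq] at h ⊢
    rw [h]; simp [mul_assoc]

theorem hT_one : hT (1 : Outer d) = gid Set.univ := by
  ext ⟨x, y⟩; simp [hT, gid]; exact eq_comm

theorem gT_one : gT (1 : Inner d) = gid Set.univ := by
  ext ⟨x, y⟩; simp [gT, gid]; exact eq_comm

theorem hT_inv (t : Outer d) : ginv (hT t) = hT t⁻¹ := by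
  ext ⟨x, y⟩
  simp only [hT, ginv, Set.mem_ofPred_eq]
  constructor <;> rintro rfl <;> simp

theorem gT_inv (t : Inner d) : ginv (gT t) = gT t⁻¹ := by
  ext ⟨x, y⟩
  simp only [gT, ginv, Set.mem_ofPred_eq]
  constructor <;> rintro rfl <;> simp

theorem hT_gT_comm (s : Outer d) (t : Inner d) : gcomp (hT s) (gT t) = gcomp (gT t) (hT s) := by
  ext ⟨x, y⟩
  constructor
  · rintro ⟨z, h1, h2⟩
    refine ⟨_, gT_apply t x, ?_⟩
    simp only [hT, gT, Set.mem_ofPred_eq] at h1 h2 ⊢
    rw [h2, h1]
  · rintro ⟨z, h1, h2⟩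
    refine ⟨_, hT_apply s x, ?_⟩
    simp only [hT, gT, Set.mem_ofPred_eq] at h1 h2 ⊢
    rw [h2, h1]

end Vale.Agent.P193.Core.Facts
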