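import Mathlib.Data.Set.Finite.List
import Mathlib.Data.Fintype.Sum
import Mathlib.Data.Finite.Sum
import Mathlib.Data.Finite.Prod
import Mathlib.Data.Fintype.Prod
import Vale.Agent.P193.Full.Core.Facts.Defs

/-! The generating family of the core model is a finite family of partial bijections. -/

namespace Vale.Agent.P193.Core.Facts

open FreeGroup

set_option linter.unusedSectionVars false

variable {d : Data}

theorem toInner_inj (hG : Good d) : Function.Injective (toInner d) := by
  intro x y h
  obtain ⟨a, b, c⟩ := x
  obtain ⟨a', b', c'⟩ := y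
  simp only [toInner, MonoidHom.coe_prodMap, MonoidHom.id_apply, Prod.map_apply,
    Prod.mk.injEq] at h
  rw [h.1, hG.emb2_inj h.2.1, hG.emb2_inj h.2.2]

theorem isPB_hT (t : Outer d) : IsPB (hT t) :=
  isPB_of_graph (fun x => { x with h := x.h * t }) (fun _ h => h)
    (fun x => { x with h := x.h * t⁻¹ }) fun p h => by
      obtain ⟨x, y⟩ := p
      simp only [hT, Set.mem_ofPred_eq] at h
      subst h; simp

theorem isPB_gT (t : Inner d) : IsPB (gT t) :=
  isPB_of_graph (fun x => { x with g := x.g * t }) (fun _ h => h)
    (fun x => { x with g := x.g * t⁻¹ }) fun p h => by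
      obtain ⟨x, y⟩ := p
      simp only [gT, Set.mem_ofPred_eq] at h
      subst h; simp

theorem isPB_uG (j : Fin 3) : IsPB (uG (d := d) j) :=
  isPB_of_graph (fun x => { x with g := x.g * proj j (guessVal d x.σ) }) (fun _ h => h.2.2)
    (fun x => { x with g := x.g * (proj j (guessVal d x.σ))⁻¹ }) fun p h => by
      obtain ⟨x, y⟩ := p
      obtain ⟨-, -, h⟩ := h
      simp only at h
      subst h; simp

theorem isPB_edgeG (e : Edge d) (he : e.OK) : IsPB (edgeG e he) := by
  constructor
  · rintro x y z ⟨σ, b, w, g, h, e1, rfl⟩ ⟨σ', b', w', g', h', e2, rfl⟩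
    simp only at e1 e2
    rw [e1] at e2
    cases e2
    rfl
  · rintro x y z ⟨σ, b, w, g, h, rfl, e1⟩ ⟨σ', b', w', g', h', rfl, e2⟩
    simp only at e1 e2
    rw [e1] at e2
    simp only [Point.mk.injEq, heq_eq_eq, true_and, Path.cons.injEq, mul_right_inj] at e2
    obtain ⟨h1, h2, h3, h4, h5⟩ := e2
    subst h1 h2
    rw [eq_of_heq h3, h4, h5]

theorem isPB_thetaG (hG : Good d) : IsPB (thetaG (d := d)) := by
  constructor
  · intro x y z h h'; exact h.trans h'.symm
  · intro x y z h h'
    simp only [thetaG, Set.mem_ofPred_eq] at h h'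
    rw [h] at h'
    simp only [Point.mk.injEq, heq_eq_eq, true_and, and_true, Wd.theta.injEq] at h'
    obtain ⟨xs, xσ, xb, xw, xg, xh⟩ := x
    obtain ⟨ys, yσ, yb, yw, yg, yh⟩ := y
    obtain ⟨⟨h1, h2, h3, h4, h5⟩, h6⟩ := h'
    simp only at h1 h2 h3 h4 h5 h6
    subst h1 h3
    rw [eq_of_heq h2, eq_of_heq h4, h5, toInner_inj hG h6]

theorem isPB_omCG : IsPB (omCG (d := d)) := by
  constructor
  · rintro x y z ⟨s, σ, c, g, h, e1, rfl⟩ ⟨s', σ', c', g', h', e2, rfl⟩
    simp only at e1 e2
    rw [e1] at e2
    cases e2
    rfl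
  · rintro x y z ⟨s, σ, c, g, h, rfl, e1⟩ ⟨s', σ', c', g', h', rfl, e2⟩
    simp only at e1 e2
    rw [e1] at e2
    cases e2
    rfl

theorem isPB_omDG : IsPB (omDG (d := d)) := by
  constructor
  · rintro x y z ⟨s, σ, c, g, h, e1, rfl⟩ ⟨s', σ', c', g', h', e2, rfl⟩
    simp only at e1 e2
    rw [e1] at e2
    cases e2
    rfl
  · rintro x y z ⟨s, σ, c, g, h, rfl, e1⟩ ⟨s', σ', c', g', h', rfl, e2⟩
    simp only at e1 e2
    rw [e1] at e2
    cases e2
    rfl

theorem isPB_omKG : IsPB (omKG (d := d)) := by
  constructor
  · rintro x y z ⟨σ, c, g, h, e1, rfl⟩ ⟨σ', c', g', h', e2, rfl⟩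
    simp only at e1 e2
    rw [e1] at e2
    cases e2
    rfl
  · rintro x y z ⟨σ, c, g, h, rfl, e1⟩ ⟨σ', c', g', h', rfl, e2⟩
    simp only at e1 e2
    rw [e1] at e2
    simp only [Point.mk.injEq, heq_eq_eq, true_and, and_true, Wd.omK.injEq] at e2
    obtain ⟨⟨h1, h2, h3⟩, h4⟩ := e2
    subst h1 h2 h3
    rw [mul_left_cancel h4]

theorem isPB_tG : IsPB (tG (d := d)) := by
  constructor
  · rintro x y z ⟨c, g, e1, rfl⟩ ⟨c', g', e2, rfl⟩
    simp only at e1 e2
    rw [e1] at e2
    cases e2
    rfl
  · rintro x y z ⟨c, g, rfl, e1⟩ ⟨c', g', rfl, e2⟩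
    simp only at e1 e2
    rw [e1] at e2
    cases e2
    rfl

/-- Every generating graph is a partial bijection. -/
theorem Gen.isPB (hG : Good d) {m : Set (Point d × Point d)} (h : Gen d m) : IsPB m := by
  cases h with
  | edge e he => exact isPB_edgeG e he
  | outer₀ k _ => exact isPB_hT _
  | outer₁ a => exact isPB_hT _
  | outer₂ a => exact isPB_hT _
  | inner i => exact isPB_gT _
  | uMap₀ => exact isPB_uG 0
  | uMap₁ => exact isPB_uG 1
  | uMap₂ => exact isPB_uG 2
  | theta => exact isPB_thetaG hG
  | omC => exact isPB_omCG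
  | omD => exact isPB_omDG
  | omK => exact isPB_omKG
  | tMap => exact isPB_tG
  | _ => exact isPB_gid _

theorem finite_pat : Finite Pat :=
  Finite.of_injective (β := Option (Option (Option (Bool ⊕ Bool × Bool ⊕ Unit))))
    (fun
      | .bd i => some (some (some (.inl i)))
      | .step i b => some (some (some (.inr (.inl (i, b)))))
      | .gPre => none
      | .gHead => some none
      | .gDone => some (some none)
      | .out => some (some (some (.inr (.inr ())))))
    (by intro a b h; cases a <;> cases b <;> simp_all)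

theorem finite_ltr : Finite (Ltr d × Bool) :=
  have := @Finite.of_fintype _ d.M.fintypeA
  inferInstance

theorem finite_state : Finite (State d) :=
  have := @Finite.of_fintype _ d.M.fintypeA
  have := @Finite.of_fintype _ d.M.fintypeQ
  have := @Finite.of_fintype _ d.M.fintypeQh
  have := finite_pat
  Finite.of_injective
    (β := Unit ⊕ Bool ⊕ Unit ⊕ (Bool × d.M.Q) ⊕ (Bool × d.M.Qh) ⊕ (Pat × (d.M.A × Bool) × Bool))
    (fun
      | .guess => .inl ()
      | .bd i => .inr (.inl i)
      | .fin => .inr (.inr (.inl ()))
      | .step i q => .inr (.inr (.inr (.inl (i, q))))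
      | .halt i q => .inr (.inr (.inr (.inr (.inl (i, q)))))
      | .scan p s => .inr (.inr (.inr (.inr (.inr (p, s))))))
    (by intro a b h; cases a <;> cases b <;> simp_all)

/-- There are finitely many edges. -/
theorem finite_edges : Set.Finite {e : Edge d | e.OK} := by
  have := finite_state (d := d)
  have := finite_ltr (d := d)
  have hq : Set.Finite (insert ([] : List (Ltr d))
      (⋃ i : Bool, (fun t : d.M.Q × d.M.A × List d.M.A × d.M.Q => emit d i t.2.2.1) '' (d.M.trans : Set _))) :=
    (Set.finite_iUnion fun i => d.M.trans.finite_toSet.image _).insert _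
  have hk : Finite (Kind d.n) := Finite.of_injective (β := Option (Option (Fin d.n)))
    (fun | .letter i => some (some i) | .junk => some none | .other => none)
    (by intro a b h; cases a <;> cases b <;> simp_all)
  refine Set.Finite.subset (((Set.finite_univ.prod (Set.finite_univ.prod
    ((List.finite_length_le (Ltr d × Bool) 1).prod (hq.prod Set.finite_univ)))).image
      fun t : State d × State d × List (Ltr d × Bool) × List (Ltr d) × Kind d.n =>
        (⟨t.1, t.2.1, t.2.2.1, t.2.2.2.1, t.2.2.2.2⟩ : Edge d))) ?_
  intro e he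
  refine ⟨(e.src, e.tgt, e.p, e.q, e.kind), ?_, rfl⟩
  simp only [Set.mem_prod, Set.mem_univ, true_and, and_true, Set.mem_ofPred_eq, Set.mem_insert_iff,
    Set.mem_iUnion, Set.mem_image, Finset.mem_coe]
  cases he with
  | stepFirst i b q' ht => exact ⟨by simp, Or.inr ⟨i, _, ht, rfl⟩⟩
  | stepMid i q a b q' ht => exact ⟨by simp, Or.inr ⟨i, _, ht, rfl⟩⟩
  | stepLast i q b q' ht => exact ⟨by simp, Or.inr ⟨i, _, ht, rfl⟩⟩
  | _ => exact ⟨by simp, Or.inl rfl⟩

/-- The generating family is finite. -/
theorem finite_gen : Set.Finite {m | Gen d m} := by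
  classical
  have := finite_state (d := d)
  have := finite_ltr (d := d)
  have := @Finite.of_fintype _ d.M.fintypeA
  have hA : Finite (Ltr d) := inferInstance
  have := (finite_edges (d := d)).to_subtype
  refine Set.Finite.subset
    ((((((((Set.finite_range fun s : State d => gid (atS s)).union
      (Set.finite_range fun e : {e : Edge d | e.OK} => edgeG e.1 e.2)).union
      (d.subGens.finite_toSet.image fun k => hT (k, 1, 1))).union
      (Set.finite_range fun a : Ltr d => hT ((1, FreeGroup.of a, 1) : Outer d))).union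
      (Set.finite_range fun a : Ltr d => hT ((1, 1, FreeGroup.of a) : Outer d))).union
      (Set.finite_range fun i => gT (d.gen i))).union
      (Set.finite_range fun s : Ltr d × Bool => gid (zFrontS s))).union
      (Set.toFinite ({gid zOneS, gid hOneS, gid tagS, gid cleanS, gid gOneS, gid kOneS, uG 0,
        uG 1, uG 2, thetaG, omCG, omDG, omKG, tG} : Set (Set (Point d × Point d))))) ?_
  intro m hm
  simp only [Set.mem_union, Set.mem_range, Set.mem_image, Set.mem_insert_iff, Set.mem_singleton_iff,
    Finset.mem_coe]
  cases hm with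
  | atState s => left; left; left; left; left; left; left; exact ⟨s, rfl⟩
  | edge e he => left; left; left; left; left; left; right; exact ⟨⟨e, he⟩, rfl⟩
  | outer₀ k hk => left; left; left; left; left; right; exact ⟨k, hk, rfl⟩
  | outer₁ a => left; left; left; left; right; exact ⟨a, rfl⟩
  | outer₂ a => left; left; left; right; exact ⟨a, rfl⟩
  | inner i => left; left; right; exact ⟨i, rfl⟩
  | @zFront s inst =>
    left; right
    refine ⟨s, ?_⟩
    rw [Subsingleton.elim inst instDecidableEqProd]
    rfl
  | zOne => right; left; rfl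
  | hOne => right; right; left; rfl
  | tagC => right; iterate 2 right
            left; rfl
  | cleanSet => right; iterate 3 right
                left; rfl
  | gOne => right; iterate 4 right
            left; rfl
  | kSet => right; iterate 5 right
            left; rfl
  | uMap₀ => right; iterate 6 right
             left; rfl
  | uMap₁ => right; iterate 7 right
             left; rfl
  | uMap₂ => right; iterate 8 right
             left; rfl
  | theta => right; iterate 9 right
             left; rfl
  | omC => right; iterate 10 right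
           left; rfl
  | omD => right; iterate 11 right
           left; rfl
  | omK => right; iterate 12 right
           left; rfl
  | tMap => right; iterate 13 right
            rfl

end Vale.Agent.P193.Core.Facts
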